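import Vale.Agent.P344.Had

namespace Vale.Agent.P344

open Finset Matrix

/-- the cancellation cost of one addition -/
noncomputable def cC (n : ℕ) (u w : Fin n → ℂ) : ℝ := Real.logb 2 ((‖u‖ + ‖w‖) / ‖u + w‖)

theorem cancellation_eq (n : ℕ) (P : List Gate) : cancellation n P = costSum n (cC n) P := rfl

theorem cC_nonneg {n : ℕ} (u w : Fin n → ℂ) : 0 ≤ cC n u w := by
  unfold cC
  rcases (norm_nonneg (u + w)).eq_or_lt with h | h
  · rw [← h, div_zero, Real.logb_zero]
  · exact Real.logb_nonneg (by norm_num) ((one_le_div h).2 (norm_add_le u w))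

theorem le_cC {n : ℕ} {u w : Fin n → ℂ} (h : u + w ≠ 0) :
    ‖u‖ + ‖w‖ = (2 : ℝ) ^ cC n u w * ‖u + w‖ := by
  have h1 : 0 < ‖u + w‖ := norm_pos_iff.2 h
  have h2 : 0 < ‖u‖ + ‖w‖ := lt_of_lt_of_le h1 (norm_add_le u w)
  unfold cC
  rw [Real.rpow_logb (by norm_num) (by norm_num) (by positivity), div_mul_cancel₀ _ h1.ne']

variable {n : ℕ}

/-- all determinants of selections of cells are bounded -/
def BD (v : ℕ → (Fin n → ℂ)) (C : ℝ) : Prop :=
  ∀ c : Fin n → ℕ, ‖(Matrix.of fun i => v (c i)).det‖ ≤ C * ∏ i, ‖v (c i)‖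

/-- the same with one row replaced by `z` -/
def GD (v : ℕ → (Fin n → ℂ)) (C : ℝ) (z : Fin n → ℂ) : Prop :=
  ∀ (c : Fin n → ℕ) (i₀ : Fin n), ‖((Matrix.of fun i => v (c i)).updateRow i₀ z).det‖ ≤
    C * (‖z‖ * ∏ i ∈ univ.erase i₀, ‖v (c i)‖)

theorem BD.cell {v : ℕ → (Fin n → ℂ)} {C : ℝ} (h : BD v C) (k : ℕ) : GD v C (v k) := by
  intro c i₀
  have h1 := h (Function.update c i₀ k)
  have h2 : (Matrix.of fun i => v (Function.update c i₀ k i)) =
      (Matrix.of fun i => v (c i)).updateRow i₀ (v k) := by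
    ext i j
    by_cases hi : i = i₀
    · subst hi; simp
    · simp [hi]
  rw [h2, ← mul_prod_erase univ _ (mem_univ i₀), Function.update_self] at h1
  rwa [prod_congr rfl fun i hi => by rw [Function.update_of_ne (ne_of_mem_erase hi)]] at h1

theorem GD.smul {v : ℕ → (Fin n → ℂ)} {C : ℝ} {z : Fin n → ℂ} (h : GD v C z) (a : ℂ) :
    GD v C (a • z) := by
  intro c i₀
  rw [det_updateRow_smul, norm_mul, norm_smul]
  calc ‖a‖ * ‖((Matrix.of fun i => v (c i)).updateRow i₀ z).det‖
      ≤ ‖a‖ * (C * (‖z‖ * ∏ i ∈ univ.erase i₀, ‖v (c i)‖)) :=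
        mul_le_mul_of_nonneg_left (h c i₀) (norm_nonneg a)
    _ = _ := by ring

theorem GD.add {v : ℕ → (Fin n → ℂ)} {C : ℝ} (hC : 0 ≤ C) {u w : Fin n → ℂ} (hu : GD v C u)
    (hw : GD v C w) : GD v (C * 2 ^ cC n u w) (u + w) := by
  intro c i₀
  have hp : 0 ≤ ∏ i ∈ univ.erase i₀, ‖v (c i)‖ := prod_nonneg fun _ _ => norm_nonneg _
  by_cases h0 : u + w = 0
  · have h1 : ((Matrix.of fun i => v (c i)).updateRow i₀ (u + w)).det = 0 :=
      det_eq_zero_of_row_eq_zero i₀ fun j => by rw [updateRow_self, h0]; rfl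
    rw [h1, norm_zero]
    positivity
  · rw [det_updateRow_add]
    refine (norm_add_le _ _).trans ?_
    have h1 := hu c i₀
    have h2 := hw c i₀
    calc _ ≤ C * (‖u‖ * ∏ i ∈ univ.erase i₀, ‖v (c i)‖) +
          C * (‖w‖ * ∏ i ∈ univ.erase i₀, ‖v (c i)‖) := add_le_add h1 h2
      _ = C * ((‖u‖ + ‖w‖) * ∏ i ∈ univ.erase i₀, ‖v (c i)‖) := by ring
      _ = _ := by rw [le_cC h0]; ring

theorem BD.step {v : ℕ → (Fin n → ℂ)} {C K : ℝ} (hC : 0 ≤ C) (hK : 1 ≤ K) (h : BD v C)
    {z : Fin n → ℂ} (hz : GD v (C * K) z) (s : ℕ) : BD (Function.update v s z) (C * K) := by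
  intro c
  have hR : 0 ≤ C * K * ∏ i, ‖Function.update v s z (c i)‖ :=
    mul_nonneg (by positivity) (prod_nonneg fun _ _ => norm_nonneg _)
  by_cases h0 : ∀ i, c i ≠ s
  · have h1 : ∀ i, Function.update v s z (c i) = v (c i) := fun i => Function.update_of_ne (h0 i) _ _
    simp only [h1]
    refine (h c).trans ?_
    have h2 : 0 ≤ ∏ i, ‖v (c i)‖ := prod_nonneg fun _ _ => norm_nonneg _
    have h3 : C ≤ C * K := by nlinarith
    exact mul_le_mul_of_nonneg_right h3 h2
  push Not at h0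
  obtain ⟨i₀, hi₀⟩ := h0
  by_cases h1 : ∃ i, i ≠ i₀ ∧ c i = s
  · obtain ⟨i, hne, hi⟩ := h1
    rw [det_zero_of_row_eq hne (by funext j; simp [hi, hi₀]), norm_zero]
    exact hR
  · push Not at h1
    have h2 := hz c i₀
    have h3 : (Matrix.of fun i => Function.update v s z (c i)) =
        (Matrix.of fun i => v (c i)).updateRow i₀ z := by
      ext i j
      by_cases hi : i = i₀
      · subst hi; simp [hi₀]
      · simp [hi, h1 i hi]
    rw [h3, ← mul_prod_erase univ _ (mem_univ i₀)]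
    have h4 : Function.update v s z (c i₀) = z := by rw [hi₀, Function.update_self]
    rw [h4]
    rwa [prod_congr rfl fun i hi => by
      rw [Function.update_of_ne (h1 i (ne_of_mem_erase hi)) z v]]

theorem BD.base : BD (mem n []) 1 := by
  intro c
  rw [one_mul]
  by_cases h0 : ∀ i, c i < n
  · have h1 : ∀ i, mem n [] (c i) = Pi.single (⟨c i, h0 i⟩ : Fin n) (1 : ℂ) := by
      intro i
      rw [mem_nil, dif_pos (h0 i)]
    simp only [h1]
    have h2 : ∀ i : Fin n, ‖(Pi.single (⟨c i, h0 i⟩ : Fin n) (1 : ℂ) : Fin n → ℂ)‖ = 1 := by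
      intro i
      rw [Pi.norm_single, norm_one]
    simp only [h2, prod_const_one]
    by_cases hinj : Function.Injective (fun i => (⟨c i, h0 i⟩ : Fin n))
    · set σ : Equiv.Perm (Fin n) := Equiv.ofBijective _ (Finite.injective_iff_bijective.1 hinj)
      have h3 : (Matrix.of fun i => (Pi.single (⟨c i, h0 i⟩ : Fin n) (1 : ℂ) : Fin n → ℂ)) =
          (1 : Matrix (Fin n) (Fin n) ℂ).submatrix σ id := by
        ext i j
        simp only [of_apply, submatrix_apply, id, Matrix.one_apply, Pi.single_apply]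
        exact if_congr eq_comm rfl rfl
      rw [h3, det_permute, det_one, mul_one]
      rcases Int.units_eq_one_or (Equiv.Perm.sign σ) with h4 | h4 <;> simp [h4]
    · unfold Function.Injective at hinj
      push Not at hinj
      obtain ⟨a, b, hab, hne⟩ := hinj
      rw [det_zero_of_row_eq hne (by funext j; simp only [of_apply]; rw [hab]), norm_zero]
      exact zero_le_one
  · push Not at h0
    obtain ⟨i, hi⟩ := h0
    have h1 : mem n [] (c i) = 0 := by rw [mem_nil, dif_neg (by omega)]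
    rw [det_eq_zero_of_row_eq_zero i fun j => by simp [h1], norm_zero]
    exact prod_nonneg fun _ _ => norm_nonneg _

/-- **Volume bound.** -/
theorem BD.main (P : List Gate) : BD (mem n P) ((2 : ℝ) ^ costSum n (cC n) P) := by
  induction P using List.reverseRecOn with
  | nil => rw [costSum_nil, Real.rpow_zero]; exact BD.base
  | append_singleton P g ih =>
    rw [costSum_append, mem_append, Real.rpow_add (by norm_num)]
    have hC : (0 : ℝ) ≤ 2 ^ costSum n (cC n) P := by positivity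
    cases g with
    | add a b =>
      exact ih.step hC (Real.one_le_rpow (by norm_num) (cC_nonneg _ _))
        ((ih.cell a).add hC (ih.cell b)) _
    | sub a b =>
      have h1 : GD (mem n P) (2 ^ costSum n (cC n) P) (-mem n P b) := by
        have := (ih.cell b).smul (-1)
        rwa [neg_one_smul] at this
      have h2 := ih.step hC (Real.one_le_rpow (by norm_num) (cC_nonneg _ _))
        ((ih.cell a).add hC h1) (n + 1 + P.length)
      rwa [← sub_eq_add_neg] at h2
    | smul a b =>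
      have h1 : (2 : ℝ) ^ (0 : ℝ) = 1 := Real.rpow_zero 2
      refine ih.step hC (by simp only [ops]; rw [h1]) ?_ _
      simp only [ops]
      rw [h1, mul_one]
      exact (ih.cell b).smul a

theorem IsHadamard.det_sq {M : Matrix (Fin n) (Fin n) ℂ} (h : IsHadamard M) :
    ‖M.det‖ ^ 2 = (n : ℝ) ^ n := by
  have h1 := congrArg Matrix.det h.orth
  rw [det_mul, det_conjTranspose, det_smul, det_one, mul_one, Fintype.card_fin,
    RCLike.star_def, Complex.mul_conj, Complex.normSq_eq_norm_sq] at h1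
  exact_mod_cast h1

/-- **Cancellation.** -/
theorem IsHadamard.canc (hn : 1 ≤ n) {M : Matrix (Fin n) (Fin n) ℂ} (h : IsHadamard M)
    {P : List Gate} (hP : Computes P M) : n / 2 * Real.logb 2 n ≤ cancellation n P := by
  obtain ⟨out, hout⟩ := hP.mem_eq
  have h1 := BD.main P out
  have h2 : (Matrix.of fun i => mem n P (out i)) = M := by
    ext i j
    exact hout i j
  rw [h2] at h1
  have h3 : ∏ i, ‖mem n P (out i)‖ ≤ 1 := by
    refine prod_le_one (fun _ _ => norm_nonneg _) fun i _ => ?_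
    refine (pi_norm_le_iff_of_nonneg zero_le_one).2 fun j => ?_
    rw [hout, h.norm_eq]
  have hn0 : (0 : ℝ) < n := by exact_mod_cast hn
  have h4 : ‖M.det‖ ≤ (2 : ℝ) ^ costSum n (cC n) P := by
    refine h1.trans ?_
    have : (0 : ℝ) ≤ 2 ^ costSum n (cC n) P := by positivity
    nlinarith
  have h5 : (n : ℝ) ^ n ≤ ((2 : ℝ) ^ costSum n (cC n) P) ^ 2 := by
    rw [← h.det_sq]
    exact pow_le_pow_left₀ (norm_nonneg _) h4 2
  have h6 := Real.logb_le_logb_of_le (b := 2) (by norm_num) (by positivity) h5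
  rw [Real.logb_pow, Real.logb_pow, Real.logb_rpow (by norm_num) (by norm_num)] at h6
  rw [cancellation_eq]
  push_cast at h6
  linarith

end Vale.Agent.P344
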