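import Mathlib

/-!
# P344: linear circuits with unrestricted coefficients for the discrete Fourier transform

A circuit is a list of gates.  The memory cells `0, …, n-1` hold the inputs, cell `n` and all cells
not yet written hold the constant `0`; the `k`-th gate (counted from `0`) writes cell `n + 1 + k`.
-/

namespace Vale.Agent.P344

/-- A gate: sum or difference of two cells, or a scalar multiple of a cell. -/
inductive Gate
  | add (a b : ℕ)
  | sub (a b : ℕ)
  | smul (c : ℂ) (a : ℕ)

section Run

variable {A : Type} [AddCommGroup A] [Module ℂ A]

/-- The value computed by a gate from the memory `v`. -/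
noncomputable def Gate.eval (v : ℕ → A) : Gate → A
  | .add a b => v a + v b
  | .sub a b => v a - v b
  | .smul c a => c • v a

/-- Run the gates in order; the first one writes cell `s`, the next one cell `s + 1`, … -/
noncomputable def runFrom (s : ℕ) (v : ℕ → A) : List Gate → ℕ → A
  | [] => v
  | g :: P => runFrom (s + 1) (Function.update v s (g.eval v)) P

/-- The memory after running the circuit on the inputs `x 0, …, x (n-1)`. -/
noncomputable def run (n : ℕ) (x : Fin n → A) (P : List Gate) : ℕ → A :=
  runFrom (n + 1) (fun k => if h : k < n then x ⟨k, h⟩ else 0) P

end Run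

/-- The circuit `P` computes `x ↦ M x`: there are designated cells holding the coordinates of `M x`
at the end, for every input vector `x`. -/
def Computes {m n : ℕ} (P : List Gate) (M : Matrix (Fin m) (Fin n) ℂ) : Prop :=
  ∃ out : Fin m → ℕ, ∀ (x : Fin n → ℂ) (i : Fin m), run n x P (out i) = M.mulVec x i

/-- The coefficient vectors of the linear forms in the cells before the `k`-th gate. -/
noncomputable def forms (n : ℕ) (P : List Gate) (k : ℕ) : ℕ → (Fin n → ℂ) :=
  run n (fun j => Pi.single j (1 : ℂ)) (P.take k)

/-- If the `k`-th gate is an addition or subtraction, the two signed operands `(u, w)`, as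
coefficient vectors (so that the gate computes the form `u + w`). -/
noncomputable def operands (n : ℕ) (P : List Gate) (k : ℕ) :
    Option ((Fin n → ℂ) × (Fin n → ℂ)) :=
  match P[k]? with
  | some (.add a b) => some (forms n P k a, forms n P k b)
  | some (.sub a b) => some (forms n P k a, -forms n P k b)
  | _ => none

open Classical in
/-- The number of additions and subtractions whose two operands have disjoint supports. -/
noncomputable def disjointAdds (n : ℕ) (P : List Gate) : ℕ :=
  ((Finset.range P.length).filter fun k =>
    ∃ u w, operands n P k = some (u, w) ∧ ∀ j, u j = 0 ∨ w j = 0).card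

open Classical in
/-- The number of additions and subtractions whose two operands have overlapping supports. -/
noncomputable def overlappingAdds (n : ℕ) (P : List Gate) : ℕ :=
  ((Finset.range P.length).filter fun k =>
    ∃ u w, operands n P k = some (u, w) ∧ ∃ j, u j ≠ 0 ∧ w j ≠ 0).card

/-- The cancellation cost: the sum over all additions and subtractions of
`log₂ ((‖u‖ + ‖w‖) / ‖u + w‖)`, where `‖·‖` is the largest modulus of a coefficient (a gate that
computes the zero form counts zero). -/
noncomputable def cancellation (n : ℕ) (P : List Gate) : ℝ :=
  ∑ k ∈ Finset.range P.length,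
    match operands n P k with
    | some (u, w) => Real.logb 2 ((‖u‖ + ‖w‖) / ‖u + w‖)
    | none => 0

/-- The unnormalized discrete Fourier matrix. -/
noncomputable def dft (n : ℕ) : Matrix (Fin n) (Fin n) ℂ :=
  fun j k => Complex.exp (2 * Real.pi * Complex.I / n) ^ ((j : ℕ) * (k : ℕ))

end Vale.Agent.P344
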