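import Vale.Agent.P344.Run

namespace Vale.Agent.P344

open Finset

/-- `x log₂ x` -/
noncomputable def phi (a : ℕ) : ℝ := (a : ℝ) * Real.logb 2 a

theorem phi_nonneg (a : ℕ) : 0 ≤ phi a := by
  rcases Nat.eq_zero_or_pos a with h | h
  · simp [phi, h]
  · have h1 : (1 : ℝ) ≤ a := by exact_mod_cast h
    exact mul_nonneg (by positivity) (Real.logb_nonneg (by norm_num) h1)

/-- the binary entropy is at most one bit -/
theorem phi_add (a b : ℕ) (ha : 0 < a) (hb : 0 < b) :
    phi (a + b) ≤ phi a + phi b + ((a + b : ℕ) : ℝ) := by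
  have ha' : (0 : ℝ) < a := by exact_mod_cast ha
  have hb' : (0 : ℝ) < b := by exact_mod_cast hb
  have hl : 0 < Real.log 2 := Real.log_pos (by norm_num)
  -- convexity of `x log x`
  have hc := Real.convexOn_mul_log.2 (show (a : ℝ) ∈ Set.Ici (0 : ℝ) from ha'.le)
    (show (b : ℝ) ∈ Set.Ici (0 : ℝ) from hb'.le)
    (show (0 : ℝ) ≤ 1 / 2 by norm_num) (show (0 : ℝ) ≤ 1 / 2 by norm_num) (by norm_num)
  simp only [smul_eq_mul] at hc
  have h1 : (1 / 2 * (a : ℝ) + 1 / 2 * b) = (a + b) / 2 := by ring
  rw [h1] at hc
  have h2 : Real.log ((a + b) / 2 : ℝ) = Real.log (a + b) - Real.log 2 :=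
    Real.log_div (by positivity) (by norm_num)
  rw [h2] at hc
  have h3 : ((a : ℝ) + b) * (Real.log (a + b) - Real.log 2) ≤
      a * Real.log a + b * Real.log b := by nlinarith
  unfold phi
  push_cast
  unfold Real.logb
  have h4 : ((a : ℝ) + b) * (Real.log (a + b) / Real.log 2) -
      (a * (Real.log a / Real.log 2) + b * (Real.log b / Real.log 2)) =
      (((a : ℝ) + b) * Real.log (a + b) - a * Real.log a - b * Real.log b) / Real.log 2 := by
    field_simp
    ring
  have h5 : (((a : ℝ) + b) * Real.log (a + b) - a * Real.log a - b * Real.log b) / Real.log 2 ≤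
      a + b := by
    rw [div_le_iff₀ hl]
    nlinarith
  linarith

/-- the cost of an addition in the disjointness count -/
noncomputable def cD (n : ℕ) (u w : Fin n → ℂ) : ℝ :=
  haveI := Classical.dec (∀ j, u j = 0 ∨ w j = 0)
  if ∀ j, u j = 0 ∨ w j = 0 then 1 else Real.logb 2 n

variable {m n : ℕ}

/-- the piece `A` of row `i` is a multiple of a cell of the memory `v` -/
def Old (M : Matrix (Fin m) (Fin n) ℂ) (v : ℕ → (Fin n → ℂ)) (i : Fin m) (A : Finset (Fin n)) :
    Prop :=
  ∃ (k : ℕ) (β : ℂ), ∀ j, (if j ∈ A then M i j else 0) = β * v k j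

/-- the support -/
noncomputable def sp (u : Fin n → ℂ) : Finset (Fin n) :=
  haveI := Classical.dec
  univ.filter fun j => u j ≠ 0

theorem mem_sp {u : Fin n → ℂ} {j : Fin n} : j ∈ sp u ↔ u j ≠ 0 := by
  simp [sp]

/-- the bound for rank-one rectangles -/
def Rect (M : Matrix (Fin m) (Fin n) ℂ) (ρ : ℝ) : Prop :=
  ∀ (T : Finset (Fin m)) (S : Finset (Fin n)) (β : Fin m → ℂ) (g : Fin n → ℂ),
    (∀ i ∈ T, ∀ j ∈ S, M i j = β i * g j) → (T.card : ℝ) * S.card ≤ ρ

/-- a family of pieces -/
structure Fam (M : Matrix (Fin m) (Fin n) ℂ) (v : ℕ → (Fin n → ℂ))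
    (F : Fin m → Finset (Finset (Fin n))) : Prop where
  ne : ∀ i, ∀ A ∈ F i, A.Nonempty
  dj : ∀ i, ∀ A ∈ F i, ∀ B ∈ F i, A ≠ B → Disjoint A B
  old : ∀ i, ∀ A ∈ F i, Old M v i A

/-- the potential -/
noncomputable def pot (F : Fin m → Finset (Finset (Fin n))) : ℝ :=
  ∑ i, ∑ A ∈ F i, phi A.card

theorem Old.update {M : Matrix (Fin m) (Fin n) ℂ} {v : ℕ → (Fin n → ℂ)} {s : ℕ}
    {f : Fin n → ℂ} {i : Fin m} {A : Finset (Fin n)} (hM : ∀ i j, M i j ≠ 0)
    (hA : A.Nonempty) (h : Old M (Function.update v s f) i A) (hno : ¬ Old M v i A) :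
    A = sp f ∧ ∃ β : ℂ, β ≠ 0 ∧ ∀ j ∈ sp f, M i j = β * f j := by
  obtain ⟨k, β, h⟩ := h
  by_cases hk : k = s
  · subst hk
    rw [Function.update_self] at h
    obtain ⟨j₀, hj₀⟩ := hA
    have hβ : β ≠ 0 := by
      intro h0
      have := h j₀
      rw [if_pos hj₀, h0, zero_mul] at this
      exact hM _ _ this
    have hAs : A = sp f := by
      ext j
      rw [mem_sp]
      constructor
      · intro hj h0
        have := h j
        rw [if_pos hj, h0, mul_zero] at this
        exact hM _ _ this
      · intro hj
        by_contra hn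
        have := h j
        rw [if_neg hn] at this
        exact hj ((mul_eq_zero.1 this.symm).resolve_left hβ)
    refine ⟨hAs, β, hβ, fun j hj => ?_⟩
    have := h j
    rw [if_pos (hAs ▸ hj)] at this
    exact this
  · exfalso
    apply hno
    refine ⟨k, β, fun j => ?_⟩
    rw [h j, Function.update_of_ne hk]

/-- If the new cell is a multiple of an old one, every piece is old. -/
theorem Old.of_mul {M : Matrix (Fin m) (Fin n) ℂ} {v : ℕ → (Fin n → ℂ)} {s : ℕ}
    {f : Fin n → ℂ} {i : Fin m} {A : Finset (Fin n)}
    (h : Old M (Function.update v s f) i A) {k : ℕ} {c : ℂ} (hf : ∀ j, f j = c * v k j) :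
    Old M v i A := by
  obtain ⟨l, β, h⟩ := h
  by_cases hl : l = s
  · subst hl
    rw [Function.update_self] at h
    refine ⟨k, β * c, fun j => ?_⟩
    rw [h j, hf j, mul_assoc]
  · refine ⟨l, β, fun j => ?_⟩
    rw [h j, Function.update_of_ne hl]

/-- The step for a real addition. -/
theorem step_add {M : Matrix (Fin m) (Fin n) ℂ} (hM : ∀ i j, M i j ≠ 0) {ρ : ℝ} (hρ : Rect M ρ)
    {v : ℕ → (Fin n → ℂ)} {s : ℕ} {u w : Fin n → ℂ} (hu : ∃ k c, ∀ j, u j = c * v k j)
    (hw : ∃ k c, ∀ j, w j = c * v k j) {F : Fin m → Finset (Finset (Fin n))}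
    (hF : Fam M (Function.update v s (u + w)) F) {X : ℝ} (hn : 1 ≤ n)
    (IH : ∀ F', Fam M v F' → pot F' ≤ ρ * X) :
    pot F ≤ ρ * (X + cD n u w) := by
  classical
  have hρ0 : 0 ≤ ρ := by
    have := hρ ∅ ∅ (fun _ => 0) (fun _ => 0) (by simp)
    simpa using this
  have hlog : 0 ≤ Real.logb 2 n := Real.logb_nonneg (by norm_num) (by exact_mod_cast hn)
  have hc0 : 0 ≤ cD n u w := by
    unfold cD; split_ifs <;> [norm_num; exact hlog]
  obtain ⟨ku, cu, hu'⟩ := hu
  obtain ⟨kw, cw, hw'⟩ := hw
  -- trivial operands
  by_cases hu0 : ∀ j, u j = 0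
  · have h1 : Fam M v F := by
      refine ⟨hF.ne, hF.dj, fun i A hA => (hF.old i A hA).of_mul (k := kw) (c := cw) ?_⟩
      intro j; simp [hu0 j, hw' j]
    have := IH F h1
    have h2 : 0 ≤ ρ * cD n u w := mul_nonneg hρ0 hc0
    linarith
  by_cases hw0 : ∀ j, w j = 0
  · have h1 : Fam M v F := by
      refine ⟨hF.ne, hF.dj, fun i A hA => (hF.old i A hA).of_mul (k := ku) (c := cu) ?_⟩
      intro j; simp [hw0 j, hu' j]
    have := IH F h1
    have h2 : 0 ≤ ρ * cD n u w := mul_nonneg hρ0 hc0
    linarith
  push Not at hu0 hw0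
  set S : Finset (Fin n) := sp (u + w) with hS
  set T : Finset (Fin m) := univ.filter fun i => S ∈ F i ∧ ¬ Old M v i S with hT
  -- the rectangle
  have hrect : (T.card : ℝ) * S.card ≤ ρ := by
    have h1 : ∀ i, ∃ β : ℂ, i ∈ T → ∀ j ∈ S, M i j = β * (u + w) j := by
      intro i
      by_cases hi : i ∈ T
      · rw [hT, mem_filter] at hi
        obtain ⟨-, β, -, h⟩ := (hF.old i S hi.2.1).update hM (hF.ne i S hi.2.1) hi.2.2
        exact ⟨β, fun _ => h⟩
      · exact ⟨0, fun h => absurd h hi⟩
    choose β hβ using h1
    exact hρ T S β (u + w) fun i hi j hj => hβ i hi j hj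
  have hnew : ∀ i, ∀ A ∈ F i, ¬ Old M v i A → A = S := by
    intro i A hA hno
    exact ((hF.old i A hA).update hM (hF.ne i A hA) hno).1
  by_cases hdisj : ∀ j, u j = 0 ∨ w j = 0
  · -- disjoint supports
    have hSu : Disjoint (sp u) (sp w) := by
      rw [disjoint_left]
      intro j hj hj'
      rcases hdisj j with h | h
      · exact mem_sp.1 hj h
      · exact mem_sp.1 hj' h
    have hSeq : S = sp u ∪ sp w := by
      ext j
      rw [hS, mem_union, mem_sp, mem_sp, mem_sp, Pi.add_apply]
      rcases hdisj j with h | h <;> simp [h]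
    have hneu : (sp u).Nonempty := by
      obtain ⟨j, hj⟩ := hu0
      exact ⟨j, mem_sp.2 hj⟩
    have hnew' : (sp w).Nonempty := by
      obtain ⟨j, hj⟩ := hw0
      exact ⟨j, mem_sp.2 hj⟩
    have hne : sp u ≠ sp w := by
      intro h
      rw [h] at hSu
      exact hnew'.ne_empty (disjoint_self.1 hSu)
    set F' : Fin m → Finset (Finset (Fin n)) := fun i =>
      if i ∈ T then insert (sp u) (insert (sp w) ((F i).erase S)) else F i with hF'
    have hdu : ∀ i ∈ T, ∀ A ∈ (F i).erase S, Disjoint (sp u) A ∧ Disjoint (sp w) A := by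
      intro i hi A hA
      rw [hT, mem_filter] at hi
      rw [mem_erase] at hA
      have h1 := hF.dj i S hi.2.1 A hA.2 (Ne.symm hA.1)
      rw [hSeq, disjoint_union_left] at h1
      exact h1
    have hFam : Fam M v F' := by
      refine ⟨fun i A hA => ?_, fun i A hA B hB hAB => ?_, fun i A hA => ?_⟩
      · by_cases hi : i ∈ T
        · simp only [hF', if_pos hi, mem_insert] at hA
          rcases hA with rfl | rfl | hA
          · exact hneu
          · exact hnew'
          · exact hF.ne i A (mem_of_mem_erase hA)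
        · simp only [hF', if_neg hi] at hA
          exact hF.ne i A hA
      · by_cases hi : i ∈ T
        · have hd := hdu i hi
          simp only [hF', if_pos hi, mem_insert] at hA hB
          rcases hA with rfl | rfl | hA <;> rcases hB with rfl | rfl | hB
          · exact absurd rfl hAB
          · exact hSu
          · exact (hd B hB).1
          · exact hSu.symm
          · exact absurd rfl hAB
          · exact (hd B hB).2
          · exact (hd A hA).1.symm
          · exact (hd A hA).2.symm
          · exact hF.dj i A (mem_of_mem_erase hA) B (mem_of_mem_erase hB) hAB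
        · simp only [hF', if_neg hi] at hA hB
          exact hF.dj i A hA B hB hAB
      · by_cases hi : i ∈ T
        · have hi' := hi
          rw [hT, mem_filter] at hi'
          obtain ⟨-, β, -, hβ⟩ := (hF.old i S hi'.2.1).update hM (hF.ne i S hi'.2.1) hi'.2.2
          simp only [hF', if_pos hi, mem_insert] at hA
          rcases hA with rfl | rfl | hA
          · refine ⟨ku, β * cu, fun j => ?_⟩
            by_cases hj : j ∈ sp u
            · rw [if_pos hj, hβ j (by rw [← hS, hSeq]; exact mem_union_left _ hj), Pi.add_apply]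
              have h0 : w j = 0 := (hdisj j).resolve_left (mem_sp.1 hj)
              rw [h0, add_zero, hu' j, mul_assoc]
            · rw [if_neg hj]
              have h0 : u j = 0 := by
                by_contra h; exact hj (mem_sp.2 h)
              rw [mul_assoc, ← hu' j, h0, mul_zero]
          · refine ⟨kw, β * cw, fun j => ?_⟩
            by_cases hj : j ∈ sp w
            · rw [if_pos hj, hβ j (by rw [← hS, hSeq]; exact mem_union_right _ hj), Pi.add_apply]
              have h0 : u j = 0 := (hdisj j).resolve_right (mem_sp.1 hj)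
              rw [h0, zero_add, hw' j, mul_assoc]
            · rw [if_neg hj]
              have h0 : w j = 0 := by
                by_contra h; exact hj (mem_sp.2 h)
              rw [mul_assoc, ← hw' j, h0, mul_zero]
          · by_contra hno
            exact (mem_erase.1 hA).1 (hnew i A (mem_of_mem_erase hA) hno)
        · simp only [hF', if_neg hi] at hA
          by_contra hno
          have h1 := hnew i A hA hno
          apply hi
          rw [hT, mem_filter]
          exact ⟨mem_univ _, h1 ▸ hA, h1 ▸ hno⟩
    have hrow : ∀ i, ∑ A ∈ F i, phi A.card ≤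
        ∑ A ∈ F' i, phi A.card + if i ∈ T then (S.card : ℝ) else 0 := by
      intro i
      by_cases hi : i ∈ T
      · have hi' := hi
        rw [hT, mem_filter] at hi'
        simp only [hF', if_pos hi]
        have hw1 : sp w ∉ (F i).erase S := by
          intro h
          have := (hdu i hi _ h).2
          exact hnew'.ne_empty (disjoint_self.1 this)
        have hu1 : sp u ∉ insert (sp w) ((F i).erase S) := by
          rw [mem_insert, not_or]
          refine ⟨hne, fun h => ?_⟩
          have := (hdu i hi _ h).1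
          exact hneu.ne_empty (disjoint_self.1 this)
        rw [sum_insert hu1, sum_insert hw1, ← add_sum_erase _ _ hi'.2.1]
        have h1 : S.card = (sp u).card + (sp w).card := by
          rw [hSeq, card_union_of_disjoint hSu]
        have h2 := phi_add _ _ (card_pos.2 hneu) (card_pos.2 hnew')
        rw [← h1] at h2
        linarith
      · simp only [hF', if_neg hi, add_zero, le_refl]
    have h1 := IH F' hFam
    have h2 : pot F ≤ pot F' + T.card * S.card := by
      unfold pot
      calc ∑ i, ∑ A ∈ F i, phi A.card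
          ≤ ∑ i, (∑ A ∈ F' i, phi A.card + if i ∈ T then (S.card : ℝ) else 0) :=
            sum_le_sum fun i _ => hrow i
        _ = ∑ i, ∑ A ∈ F' i, phi A.card + T.card * S.card := by
            rw [sum_add_distrib, ← sum_filter, filter_mem_eq_inter, univ_inter, sum_const,
              nsmul_eq_mul]
    have h3 : cD n u w = 1 := by
      unfold cD; rw [if_pos hdisj]
    rw [h3]
    linarith
  · -- overlapping supports
    set F' : Fin m → Finset (Finset (Fin n)) := fun i =>
      if i ∈ T then (F i).erase S else F i with hF'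
    have hsub : ∀ i, F' i ⊆ F i := by
      intro i
      simp only [hF']
      split_ifs
      · exact erase_subset _ _
      · exact Subset.refl _
    have hFam : Fam M v F' := by
      refine ⟨fun i A hA => hF.ne i A (hsub i hA),
        fun i A hA B hB hAB => hF.dj i A (hsub i hA) B (hsub i hB) hAB, fun i A hA => ?_⟩
      by_contra hno
      have h1 := hnew i A (hsub i hA) hno
      have hi : i ∈ T := by
        rw [hT, mem_filter]
        exact ⟨mem_univ _, h1 ▸ hsub i hA, h1 ▸ hno⟩
      simp only [hF', if_pos hi, mem_erase] at hA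
      exact hA.1 h1
    have hrow : ∀ i, ∑ A ∈ F i, phi A.card ≤
        ∑ A ∈ F' i, phi A.card + if i ∈ T then (S.card : ℝ) * Real.logb 2 n else 0 := by
      intro i
      by_cases hi : i ∈ T
      · have hi' := hi
        rw [hT, mem_filter] at hi'
        simp only [hF', if_pos hi]
        rw [← add_sum_erase _ _ hi'.2.1]
        have h1 : phi S.card ≤ S.card * Real.logb 2 n := by
          unfold phi
          have hSpos : 0 < S.card := card_pos.2 (hF.ne i S hi'.2.1)
          have h2 : (S.card : ℝ) ≤ n := by
            have := card_le_univ S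
            rw [Fintype.card_fin] at this
            exact_mod_cast this
          have h3 : (0 : ℝ) < S.card := by exact_mod_cast hSpos
          exact mul_le_mul_of_nonneg_left (Real.logb_le_logb_of_le (by norm_num) h3 h2) h3.le
        linarith
      · simp only [hF', if_neg hi, add_zero, le_refl]
    have h1 := IH F' hFam
    have h2 : pot F ≤ pot F' + T.card * (S.card * Real.logb 2 n) := by
      unfold pot
      calc ∑ i, ∑ A ∈ F i, phi A.card
          ≤ ∑ i, (∑ A ∈ F' i, phi A.card +
              if i ∈ T then (S.card : ℝ) * Real.logb 2 n else 0) :=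
            sum_le_sum fun i _ => hrow i
        _ = ∑ i, ∑ A ∈ F' i, phi A.card + T.card * (S.card * Real.logb 2 n) := by
            rw [sum_add_distrib, ← sum_filter, filter_mem_eq_inter, univ_inter, sum_const,
              nsmul_eq_mul]
    have h3 : cD n u w = Real.logb 2 n := by
      unfold cD; rw [if_neg hdisj]
    rw [h3]
    have h4 : (T.card : ℝ) * (S.card * Real.logb 2 n) ≤ ρ * Real.logb 2 n := by
      rw [← mul_assoc]
      exact mul_le_mul_of_nonneg_right hrect hlog
    linarith

/-- **Main inequality.** -/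
theorem pot_le {M : Matrix (Fin m) (Fin n) ℂ} (hM : ∀ i j, M i j ≠ 0) {ρ : ℝ} (hρ : Rect M ρ)
    (hn : 1 ≤ n) (P : List Gate) :
    ∀ F, Fam M (mem n P) F → pot F ≤ ρ * costSum n (cD n) P := by
  induction P using List.reverseRecOn with
  | nil =>
    intro F hF
    rw [costSum_nil, mul_zero]
    unfold pot
    refine sum_nonpos fun i _ => sum_nonpos fun A hA => ?_
    obtain ⟨k, β, h⟩ := hF.old i A hA
    have h1 : A.card ≤ 1 := by
      rw [card_le_one]
      intro a ha b hb
      have h2 : ∀ c ∈ A, (c : ℕ) = k := by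
        intro c hc
        have h3 := h c
        rw [if_pos hc, mem_nil] at h3
        by_contra hck
        apply hM i c
        rw [h3]
        split
        · rename_i hk
          rw [Pi.single_apply, if_neg, mul_zero]
          intro heq
          apply hck
          rw [heq]
        · simp
      exact Fin.ext ((h2 a ha).trans (h2 b hb).symm)
    have h2 : A.card = 1 := le_antisymm h1 (card_pos.2 (hF.ne i A hA))
    rw [h2]
    simp [phi]
  | append_singleton P g ih =>
    intro F hF
    rw [mem_append] at hF
    rw [costSum_append]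
    cases g with
    | add a b =>
      exact step_add hM hρ (u := mem n P a) (w := mem n P b) ⟨a, 1, fun j => by simp⟩
        ⟨b, 1, fun j => by simp⟩ hF hn ih
    | sub a b =>
      refine step_add hM hρ (s := n + 1 + P.length) (u := mem n P a) (w := -mem n P b)
        ⟨a, 1, fun j => by simp⟩ ⟨b, -1, fun j => by simp⟩ (F := F) ?_ hn ih
      rw [← sub_eq_add_neg]
      exact hF
    | smul c a =>
      simp only [ops, add_zero]
      refine ih F ⟨hF.ne, hF.dj, fun i A hA => ?_⟩
      exact (hF.old i A hA).of_mul (k := a) (c := c) fun j => by simp [Gate.eval]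

end Vale.Agent.P344
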