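import Vale.Agent.P344.Disj

namespace Vale.Agent.P344

open Finset Matrix

theorem costSum_cD (n : ℕ) (P : List Gate) :
    costSum n (cD n) P = disjointAdds n P + Real.logb 2 n * overlappingAdds n P := by
  classical
  unfold costSum disjointAdds overlappingAdds
  rw [card_filter, card_filter, Nat.cast_sum, Nat.cast_sum, mul_sum, ← sum_add_distrib]
  refine sum_congr rfl fun k _ => ?_
  rcases h : operands n P k with _ | ⟨u, w⟩
  · simp
  · simp only [Option.some.injEq, Prod.mk.injEq]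
    have e1 : (∃ u_1 w_1, (u = u_1 ∧ w = w_1) ∧ ∀ j, u_1 j = 0 ∨ w_1 j = 0) ↔
        ∀ j, u j = 0 ∨ w j = 0 :=
      ⟨fun ⟨_, _, ⟨h1, h2⟩, h3⟩ => by subst h1; subst h2; exact h3,
        fun h3 => ⟨u, w, ⟨rfl, rfl⟩, h3⟩⟩
    have e2 : (∃ u_1 w_1, (u = u_1 ∧ w = w_1) ∧ ∃ j, u_1 j ≠ 0 ∧ w_1 j ≠ 0) ↔
        ¬ ∀ j, u j = 0 ∨ w j = 0 := by
      constructor
      · rintro ⟨_, _, ⟨h1, h2⟩, j, h3, h4⟩ h5
        subst h1; subst h2
        rcases h5 j with h6 | h6
        · exact h3 h6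
        · exact h4 h6
      · intro h3
        push Not at h3
        exact ⟨u, w, ⟨rfl, rfl⟩, h3⟩
    rw [if_congr e1 rfl rfl, if_congr e2 rfl rfl]
    unfold cD
    by_cases hd : ∀ j, u j = 0 ∨ w j = 0
    · simp only [if_pos hd, if_neg (not_not.2 hd)]; simp
    · simp only [if_neg hd, if_pos hd]; simp

/-- complex Hadamard matrices -/
structure IsHadamard {n : ℕ} (M : Matrix (Fin n) (Fin n) ℂ) : Prop where
  norm_eq : ∀ i j, ‖M i j‖ = 1
  orth : M * Mᴴ = (n : ℂ) • (1 : Matrix (Fin n) (Fin n) ℂ)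

/-- Parseval -/
theorem IsHadamard.parseval {n : ℕ} {M : Matrix (Fin n) (Fin n) ℂ} (h : IsHadamard M)
    (c : Fin n → ℂ) : ∑ j, ‖(c ᵥ* M) j‖ ^ 2 = n * ∑ i, ‖c i‖ ^ 2 := by
  have h1 : (c ᵥ* M) ⬝ᵥ star (c ᵥ* M) = (n : ℂ) * (c ⬝ᵥ star c) := by
    rw [star_vecMul, ← dotProduct_mulVec, mulVec_mulVec, h.orth, smul_mulVec, one_mulVec,
      dotProduct_smul, smul_eq_mul]
  have h2 : ∀ x : Fin n → ℂ, x ⬝ᵥ star x = ((∑ j, ‖x j‖ ^ 2 : ℝ) : ℂ) := by
    intro x
    simp only [dotProduct, Pi.star_apply, RCLike.star_def, Complex.mul_conj, Complex.ofReal_sum,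
      Complex.normSq_eq_norm_sq]
  rw [h2, h2] at h1
  exact_mod_cast h1

/-- Lindsey-type lemma: rank-one rectangles are small. -/
theorem IsHadamard.rect {n : ℕ} {M : Matrix (Fin n) (Fin n) ℂ} (h : IsHadamard M) :
    Rect M n := by
  classical
  intro T S β g hM
  rcases T.eq_empty_or_nonempty with rfl | ⟨i₀, hi₀⟩
  · simp
  rcases S.eq_empty_or_nonempty with rfl | ⟨j₀, hj₀⟩
  · simp
  have hbg : ∀ i ∈ T, ∀ j ∈ S, ‖β i‖ * ‖g j‖ = 1 := by
    intro i hi j hj
    rw [← norm_mul, ← hM i hi j hj, h.norm_eq]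
  set b : ℝ := ‖β i₀‖ with hb
  have hb0 : 0 < b := by
    have := hbg i₀ hi₀ j₀ hj₀
    rcases (norm_nonneg (β i₀)).lt_or_eq with h1 | h1
    · exact h1
    · rw [← h1] at this; simp at this
  have hg0 : 0 < ‖g j₀‖ := by
    have := hbg i₀ hi₀ j₀ hj₀
    rcases (norm_nonneg (g j₀)).lt_or_eq with h1 | h1
    · exact h1
    · rw [← h1] at this; simp at this
  have hβ : ∀ i ∈ T, ‖β i‖ = b := by
    intro i hi
    have h1 := hbg i hi j₀ hj₀
    have h2 := hbg i₀ hi₀ j₀ hj₀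
    exact mul_right_cancel₀ hg0.ne' (h1.trans h2.symm)
  set c : Fin n → ℂ := fun i => if i ∈ T then star (β i) else 0 with hc
  have h1 := h.parseval c
  have h2 : ∑ i, ‖c i‖ ^ 2 = T.card * b ^ 2 := by
    have : ∀ i, ‖c i‖ ^ 2 = if i ∈ T then b ^ 2 else 0 := by
      intro i
      simp only [hc]
      split_ifs with hi
      · rw [norm_star, hβ i hi]
      · simp
    simp only [this]
    rw [← sum_filter, filter_mem_eq_inter, univ_inter, sum_const, nsmul_eq_mul]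
  have h3 : ∀ j ∈ S, ‖(c ᵥ* M) j‖ ^ 2 = T.card ^ 2 * b ^ 2 := by
    intro j hj
    have h4 : (c ᵥ* M) j = ((T.card * b ^ 2 : ℝ) : ℂ) * g j := by
      simp only [vecMul, dotProduct, hc, ite_mul, zero_mul]
      rw [← sum_filter, filter_mem_eq_inter, univ_inter]
      have : ∀ i ∈ T, star (β i) * M i j = ((b ^ 2 : ℝ) : ℂ) * g j := by
        intro i hi
        rw [hM i hi j hj, ← mul_assoc]
        congr 1
        rw [RCLike.star_def, mul_comm, Complex.mul_conj, Complex.normSq_eq_norm_sq, hβ i hi]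
      rw [sum_congr rfl this, sum_const, nsmul_eq_mul]
      push_cast
      ring
    rw [h4, norm_mul, Complex.norm_real, Real.norm_of_nonneg (by positivity)]
    have h5 := hbg i₀ hi₀ j hj
    have h6 : (b * ‖g j‖) ^ 2 = 1 := by rw [h5]; norm_num
    calc (T.card * b ^ 2 * ‖g j‖) ^ 2 = T.card ^ 2 * b ^ 2 * (b * ‖g j‖) ^ 2 := by ring
      _ = _ := by rw [h6, mul_one]
  have h4 : (S.card : ℝ) * (T.card ^ 2 * b ^ 2) ≤ n * (T.card * b ^ 2) := by
    rw [← h2, ← h1, ← nsmul_eq_mul, ← sum_const, ← sum_congr rfl h3]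
    exact sum_le_sum_of_subset_of_nonneg (subset_univ _) fun _ _ _ => by positivity
  have hT : (0 : ℝ) < T.card := by exact_mod_cast card_pos.2 ⟨i₀, hi₀⟩
  have h5 : (T.card : ℝ) * S.card * (T.card * b ^ 2) ≤ n * (T.card * b ^ 2) := by nlinarith
  exact le_of_mul_le_mul_right h5 (by positivity)

/-- **Disjoint and overlapping additions.** -/
theorem IsHadamard.adds {n : ℕ} (hn : 1 ≤ n) {M : Matrix (Fin n) (Fin n) ℂ} (h : IsHadamard M)
    {P : List Gate} (hP : Computes P M) :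
    n * Real.logb 2 n ≤ disjointAdds n P + Real.logb 2 n * overlappingAdds n P := by
  obtain ⟨out, hout⟩ := hP.mem_eq
  have hM : ∀ i j, M i j ≠ 0 := by
    intro i j h0
    have := h.norm_eq i j
    rw [h0] at this
    simp at this
  have : NeZero n := ⟨by omega⟩
  have h1 := pot_le hM h.rect hn P (fun _ => {univ}) ⟨?_, ?_, ?_⟩
  · rw [costSum_cD] at h1
    have h2 : pot (fun _ : Fin n => ({univ} : Finset (Finset (Fin n)))) =
        n * (n * Real.logb 2 n) := by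
      simp [pot, phi]
    rw [h2] at h1
    have h3 : (0 : ℝ) < n := by exact_mod_cast hn
    exact le_of_mul_le_mul_left h1 h3
  · intro i A hA
    rw [mem_singleton.1 hA]
    exact univ_nonempty
  · intro i A hA B hB hAB
    rw [mem_singleton.1 hA, mem_singleton.1 hB] at hAB
    exact absurd rfl hAB
  · intro i A hA
    rw [mem_singleton.1 hA]
    exact ⟨out i, 1, fun j => by simp [hout i j]⟩

theorem dft_isHadamard {n : ℕ} (hn : 1 ≤ n) : IsHadamard (dft n) := by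
  have hn0 : n ≠ 0 := by omega
  have hζ := Complex.isPrimitiveRoot_exp n hn0
  have hnorm : ‖Complex.exp (2 * Real.pi * Complex.I / n)‖ = 1 := hζ.norm'_eq_one hn0
  set ζ : ℂ := Complex.exp (2 * Real.pi * Complex.I / n) with hζd
  have hζ0 : ζ ≠ 0 := Complex.exp_ne_zero _
  refine ⟨fun i j => by simp only [dft]; rw [← hζd, norm_pow, hnorm, one_pow], ?_⟩
  ext i j
  rw [mul_apply]
  have hstar : ∀ k : ℕ, star (ζ ^ k) = (ζ ^ k)⁻¹ := by
    intro k
    rw [RCLike.star_def, Complex.inv_eq_conj (by rw [norm_pow, hnorm, one_pow])]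
  have h1 : ∀ k : Fin n, dft n i k * (dft n)ᴴ k j = (ζ ^ (i : ℕ) * (ζ ^ (j : ℕ))⁻¹) ^ (k : ℕ) := by
    intro k
    rw [conjTranspose_apply]
    simp only [dft]
    rw [← hζd, hstar, mul_pow, inv_pow, ← pow_mul, ← pow_mul]
  simp only [h1]
  rw [Matrix.smul_apply, Matrix.one_apply]
  by_cases hij : i = j
  · subst hij
    have : ζ ^ (i : ℕ) * (ζ ^ (i : ℕ))⁻¹ = 1 := mul_inv_cancel₀ (pow_ne_zero _ hζ0)
    simp [this]
  · rw [if_neg hij, smul_zero]
    set r : ℂ := ζ ^ (i : ℕ) * (ζ ^ (j : ℕ))⁻¹ with hr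
    have hr1 : r ≠ 1 := by
      intro h
      rw [hr, mul_inv_eq_one₀ (pow_ne_zero _ hζ0)] at h
      exact hij (Fin.ext (hζ.pow_inj i.2 j.2 h))
    have hrn : r ^ n = 1 := by
      rw [hr, mul_pow, inv_pow, ← pow_mul, ← pow_mul, mul_comm (i : ℕ), mul_comm (j : ℕ), pow_mul,
        pow_mul, hζ.pow_eq_one]
      simp
    rw [Fin.sum_univ_eq_sum_range (fun k => r ^ k) n]
    have h2 := geom_sum_eq hr1 n
    rw [h2, hrn]
    simp

end Vale.Agent.P344
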