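import Vale.Agent.P344.Defs

namespace Vale.Agent.P344

open Finset

section Run

variable {A B : Type} [AddCommGroup A] [Module ℂ A] [AddCommGroup B] [Module ℂ B]

theorem runFrom_append (s : ℕ) (v : ℕ → A) (P : List Gate) (g : Gate) :
    runFrom s v (P ++ [g]) =
      Function.update (runFrom s v P) (s + P.length) (g.eval (runFrom s v P)) := by
  induction P generalizing s v with
  | nil => simp [runFrom]
  | cons h P ih =>
    simp only [List.cons_append, runFrom, List.length_cons]
    rw [ih, show s + 1 + P.length = s + (P.length + 1) by omega]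

theorem run_append (n : ℕ) (x : Fin n → A) (P : List Gate) (g : Gate) :
    run n x (P ++ [g]) =
      Function.update (run n x P) (n + 1 + P.length) (g.eval (run n x P)) :=
  runFrom_append _ _ _ _

theorem eval_map (φ : A →ₗ[ℂ] B) (v : ℕ → A) (g : Gate) :
    φ (g.eval v) = g.eval (fun k => φ (v k)) := by
  cases g <;> simp [Gate.eval]

theorem run_map (φ : A →ₗ[ℂ] B) (n : ℕ) (x : Fin n → A) (P : List Gate) (k : ℕ) :
    φ (run n x P k) = run n (fun j => φ (x j)) P k := by
  induction P using List.reverseRecOn generalizing k with
  | nil =>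
    simp only [run, runFrom]
    split <;> simp
  | append_singleton P g ih =>
    rw [run_append, run_append]
    by_cases hk : k = n + 1 + P.length
    · subst hk
      rw [Function.update_self, Function.update_self, eval_map]
      congr 1
      funext i
      exact ih i
    · rw [Function.update_of_ne hk, Function.update_of_ne hk, ih]

end Run

/-- the coefficient vectors at the end -/
noncomputable def mem (n : ℕ) (P : List Gate) : ℕ → (Fin n → ℂ) :=
  run n (fun j => Pi.single j (1 : ℂ)) P

theorem mem_append (n : ℕ) (P : List Gate) (g : Gate) :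
    mem n (P ++ [g]) = Function.update (mem n P) (n + 1 + P.length) (g.eval (mem n P)) :=
  run_append _ _ _ _

theorem mem_nil (n k : ℕ) : mem n [] k = if h : k < n then Pi.single ⟨k, h⟩ (1 : ℂ) else 0 := rfl

/-- evaluation of a linear form -/
noncomputable def evl (n : ℕ) (x : Fin n → ℂ) : (Fin n → ℂ) →ₗ[ℂ] ℂ where
  toFun f := ∑ j, f j * x j
  map_add' f g := by simp [add_mul, sum_add_distrib]
  map_smul' c f := by simp [mul_assoc, mul_sum]

theorem run_eq (n : ℕ) (x : Fin n → ℂ) (P : List Gate) (k : ℕ) :
    run n x P k = ∑ j, mem n P k j * x j := by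
  have h := run_map (evl n x) n (fun j => Pi.single j (1 : ℂ)) P k
  have h2 : (fun j => evl n x (Pi.single j (1 : ℂ))) = x := by
    funext j
    simp [evl, Pi.single_apply]
  rw [h2] at h
  rw [← h]
  rfl

theorem Computes.mem_eq {m n : ℕ} {P : List Gate} {M : Matrix (Fin m) (Fin n) ℂ}
    (h : Computes P M) : ∃ out : Fin m → ℕ, ∀ i j, mem n P (out i) j = M i j := by
  obtain ⟨out, hout⟩ := h
  refine ⟨out, fun i j => ?_⟩
  have h1 := hout (Pi.single j 1) i
  rw [run_eq] at h1
  simpa [Pi.single_apply, Matrix.mulVec, dotProduct] using h1

/-- the operands of a new last gate -/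
noncomputable def ops {n : ℕ} (v : ℕ → (Fin n → ℂ)) (g : Gate) :
    Option ((Fin n → ℂ) × (Fin n → ℂ)) :=
  match g with
  | .add a b => some (v a, v b)
  | .sub a b => some (v a, -v b)
  | .smul _ _ => none

theorem operands_append_lt (n : ℕ) (P : List Gate) (g : Gate) {k : ℕ} (hk : k < P.length) :
    operands n (P ++ [g]) k = operands n P k := by
  unfold operands forms
  rw [List.getElem?_append_left hk, List.take_append_of_le_length hk.le]

theorem operands_append_last (n : ℕ) (P : List Gate) (g : Gate) :
    operands n (P ++ [g]) P.length = ops (mem n P) g := by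
  unfold operands forms ops mem
  rw [List.getElem?_append_right le_rfl]
  simp only [Nat.sub_self, List.getElem?_cons_zero, List.take_append_of_le_length le_rfl,
    List.take_length]
  cases g <;> rfl

/-- a cost that is summed over the additions -/
noncomputable def costSum (n : ℕ) (c : (Fin n → ℂ) → (Fin n → ℂ) → ℝ) (P : List Gate) : ℝ :=
  ∑ k ∈ range P.length,
    match operands n P k with
    | some (u, w) => c u w
    | none => 0

theorem costSum_nil (n : ℕ) (c : (Fin n → ℂ) → (Fin n → ℂ) → ℝ) : costSum n c [] = 0 := by
  simp [costSum]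

theorem costSum_append (n : ℕ) (c : (Fin n → ℂ) → (Fin n → ℂ) → ℝ) (P : List Gate) (g : Gate) :
    costSum n c (P ++ [g]) = costSum n c P +
      (match ops (mem n P) g with
        | some (u, w) => c u w
        | none => 0) := by
  unfold costSum
  rw [List.length_append, List.length_singleton, sum_range_succ, operands_append_last]
  congr 1
  refine sum_congr rfl fun k hk => ?_
  rw [operands_append_lt n P g (mem_range.1 hk)]

end Vale.Agent.P344
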